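import Mathlib

/-!
P333, ratio 20/9 + eps, step 5 (local search over gates): cutting the cycles of a permutation
into segments which contain few marked points, at small cost.
-/

namespace Vale.Agent.P333.G155

variable {α : Type*}

/-- Sum of the costs of the marked points of `l` which are cut points, when the cut points are
the marked points number `k`, `k + M`, `k + 2 M`, .. of `l`. -/
def cutSum (Z : α → Prop) [DecidablePred Z] (ℓ : α → ℤ) (M : ℕ) : ℕ → List α → ℤ
  | _, [] => 0
  | k, x :: xs => if Z x then
      (if k = 0 then ℓ x + cutSum Z ℓ M (M - 1) xs else cutSum Z ℓ M (k - 1) xs)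
      else cutSum Z ℓ M k xs

theorem sum_cutSum (Z : α → Prop) [DecidablePred Z] (ℓ : α → ℤ) (M : ℕ) (hM : 1 ≤ M)
    (l : List α) :
    ∑ k ∈ Finset.range M, cutSum Z ℓ M k l = ((l.filter (fun x => decide (Z x))).map ℓ).sum := by
  induction l with
  | nil => simp [cutSum]
  | cons x xs ih =>
    by_cases hx : Z x
    · simp only [cutSum, hx, if_true, decide_true, List.filter_cons_of_pos, List.map_cons,
        List.sum_cons]
      rw [← ih]
      obtain ⟨m, rfl⟩ : ∃ m, M = m + 1 := ⟨M - 1, by omega⟩
      rw [Finset.sum_range_succ', Finset.sum_range_succ]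
      simp only [if_true, Nat.add_sub_cancel, Nat.succ_ne_zero, if_false]
      ring
    · simp only [cutSum, hx, if_false]
      rw [ih, List.filter_cons_of_neg (by simpa using hx)]

/-- The chunks of a list cut after its marked points number `k`, `k + M`, ... -/
theorem exists_chunks (Z : α → Prop) [DecidablePred Z] (ℓ : α → ℤ) (M : ℕ) (hM : 1 ≤ M)
    (l : List α) : ∀ k < M,
    (l.countP (fun x => decide (Z x)) ≤ k ∧ cutSum Z ℓ M k l = 0) ∨
    ∃ (f : List α) (z : α) (bs : List (List α × α)) (c : List α),
      l = f ++ [z] ++ (bs.map (fun p => p.1 ++ [p.2])).flatten ++ c ∧ Z z ∧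
      f.countP (fun x => decide (Z x)) ≤ k ∧
      (∀ p ∈ bs, Z p.2 ∧ (p.1 ++ [p.2]).countP (fun x => decide (Z x)) ≤ M) ∧
      c.countP (fun x => decide (Z x)) < M ∧
      cutSum Z ℓ M k l = ℓ z + (bs.map (fun p => ℓ p.2)).sum := by
  induction l with
  | nil => intro k _; left; simp [cutSum]
  | cons x xs ih =>
    intro k hk
    by_cases hx : Z x
    · by_cases hk0 : k = 0
      · subst hk0
        right
        rcases ih (M - 1) (by omega) with ⟨h1, h2⟩ | ⟨f, z, bs, c, h1, h2, h3, h4, h5, h6⟩
        · refine ⟨[], x, [], xs, by simp, hx, by simp, by simp, by omega, ?_⟩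
          simp [cutSum, hx, h2]
        · refine ⟨[], x, (f, z) :: bs, c, ?_, hx, by simp, ?_, h5, ?_⟩
          · rw [h1]; simp
          · intro p hp
            rcases List.mem_cons.1 hp with rfl | hp
            · refine ⟨h2, ?_⟩
              simp only [List.countP_append, List.countP_cons, List.countP_nil, h2, decide_true,
                if_true]
              omega
            · exact h4 p hp
          · simp [cutSum, hx, h6]
      · rcases ih (k - 1) (by omega) with ⟨h1, h2⟩ | ⟨f, z, bs, c, h1, h2, h3, h4, h5, h6⟩
        · left
          refine ⟨?_, by simp [cutSum, hx, hk0, h2]⟩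
          simp only [List.countP_cons, hx, decide_true, if_true]
          omega
        · right
          refine ⟨x :: f, z, bs, c, by rw [h1]; simp, h2, ?_, h4, h5, ?_⟩
          · simp only [List.countP_cons, hx, decide_true, if_true]
            omega
          · simp [cutSum, hx, hk0, h6]
    · rcases ih k hk with ⟨h1, h2⟩ | ⟨f, z, bs, c, h1, h2, h3, h4, h5, h6⟩
      · left
        refine ⟨?_, by simp [cutSum, hx, h2]⟩
        simpa [List.countP_cons, hx] using h1
      · right
        refine ⟨x :: f, z, bs, c, by rw [h1]; simp, h2, ?_, h4, h5, ?_⟩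
        · simpa [List.countP_cons, hx] using h3
        · simp [cutSum, hx, h6]

/-- A chain of `π`: consecutive elements are successive iterates. -/
def PChain (π : Equiv.Perm α) (l : List α) : Prop := l.IsChain (fun x y => π x = y)

theorem PChain.mid {π : Equiv.Perm α} {l b : List α} (h : PChain π l) (a c : List α)
    (e : a ++ b ++ c = l) : PChain π b := by
  subst e
  exact (List.isChain_append.1 (List.isChain_append.1 h).1).2.1

/-- Cost of closing the segment `p.1 ++ [p.2]`: zero if it is a whole cycle of `π`. -/
noncomputable def closeCost [DecidableEq α] (π : Equiv.Perm α) (ℓ : α → ℤ) (p : List α × α) : ℤ :=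
  if (p.1 ++ [p.2]).head? = some (π p.2) then 0 else ℓ p.2

/-- One cycle of `π`, given as a list, is cut into segments. -/
theorem cut_cycle [DecidableEq α] (π : Equiv.Perm α) (Z : α → Prop) [DecidablePred Z]
    (ℓ : α → ℤ) (hℓ : ∀ x, 0 ≤ ℓ x) (M : ℕ) (hM : 1 ≤ M) (l : List α) (z : α)
    (hl : PChain π (l ++ [z])) (hz : (l ++ [z]).head? = some (π z)) :
    ∃ segs : List (List α × α),
      (segs.map (fun p => p.1 ++ [p.2])).flatten.Perm (l ++ [z]) ∧
      (∀ p ∈ segs, PChain π (p.1 ++ [p.2]) ∧
        (p.1 ++ [p.2]).countP (fun x => decide (Z x)) ≤ 2 * M) ∧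
      (M : ℤ) * (segs.map (closeCost π ℓ)).sum ≤
        (((l ++ [z]).filter (fun x => decide (Z x))).map ℓ).sum := by
  -- choose the best offset
  have hex : ∃ k < M, (M : ℤ) * cutSum Z ℓ M k (l ++ [z]) ≤
      (((l ++ [z]).filter (fun x => decide (Z x))).map ℓ).sum := by
    by_contra hcon
    push Not at hcon
    have h1 : ∑ k ∈ Finset.range M, (((l ++ [z]).filter (fun x => decide (Z x))).map ℓ).sum <
        ∑ k ∈ Finset.range M, (M : ℤ) * cutSum Z ℓ M k (l ++ [z]) := by
      refine Finset.sum_lt_sum_of_nonempty ?_ (fun k hk => hcon k (Finset.mem_range.1 hk))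
      exact Finset.nonempty_range_iff.2 (by omega)
    rw [← Finset.mul_sum, sum_cutSum Z ℓ M hM, Finset.sum_const, Finset.card_range,
      nsmul_eq_mul] at h1
    exact lt_irrefl _ h1
  obtain ⟨k, hk, hkM⟩ := hex
  rcases exists_chunks Z ℓ M hM (l ++ [z]) k hk with ⟨h1, h2⟩ | ⟨f, y, bs, c, h1, h2, h3, h4, h5, h6⟩
  · refine ⟨[(l, z)], by simp, ?_, ?_⟩
    · intro p hp
      rw [List.mem_singleton] at hp
      subst hp
      refine ⟨hl, ?_⟩
      show (l ++ [z]).countP (fun x => decide (Z x)) ≤ 2 * M
      omega
    · rw [h2] at hkM
      simpa [closeCost, hz] using hkM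
  · refine ⟨bs ++ [(c ++ f, y)], ?_, ?_, ?_⟩
    · rw [h1, List.map_append, List.flatten_append]
      simp only [List.map_cons, List.map_nil, List.flatten_cons, List.flatten_nil, List.append_nil]
      have e : (f ++ [y] ++ (List.map (fun p : List α × α => p.1 ++ [p.2]) bs).flatten ++ c).Perm
          ((List.map (fun p : List α × α => p.1 ++ [p.2]) bs).flatten ++ c ++ (f ++ [y])) := by
        rw [List.append_assoc]
        exact List.perm_append_comm
      refine List.Perm.trans ?_ e.symm
      simp only [List.append_assoc]
      exact List.Perm.refl _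
    · intro p hp
      rw [h1] at hl
      rcases List.mem_append.1 hp with hp | hp
      · refine ⟨?_, by have := (h4 p hp).2; omega⟩
        obtain ⟨s, t, hst⟩ := List.append_of_mem hp
        refine hl.mid (f ++ [y] ++ (s.map (fun p : List α × α => p.1 ++ [p.2])).flatten)
          ((t.map (fun p : List α × α => p.1 ++ [p.2])).flatten ++ c) ?_
        rw [hst]
        simp
      · rw [List.mem_singleton] at hp
        subst hp
        refine ⟨?_, ?_⟩
        · -- the wrapped segment
          have hf : PChain π (f ++ [y]) := by
            refine hl.mid [] ((bs.map (fun p => p.1 ++ [p.2])).flatten ++ c) ?_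
            simp
          rcases List.eq_nil_or_concat' c with rfl | ⟨c', d, rfl⟩
          · simpa using hf
          · have hc : PChain π (c' ++ [d]) := by
              refine hl.mid (f ++ [y] ++ (bs.map (fun p => p.1 ++ [p.2])).flatten) [] ?_
              simp
            have hdz : d = z := by
              have := congrArg List.getLast? h1
              rw [← List.append_assoc] at this
              simp only [List.getLast?_append, List.getLast?_singleton, Option.some_or] at this
              exact (Option.some.inj this).symm
            subst hdz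
            unfold PChain
            have e : ((c' ++ [d]) ++ f, y).1 ++ [((c' ++ [d]) ++ f, y).2] =
                (c' ++ [d]) ++ (f ++ [y]) := by simp
            rw [e, List.isChain_append]
            refine ⟨hc, hf, ?_⟩
            intro x hx w hw
            simp only [List.getLast?_append, List.getLast?_singleton, Option.some_or,
              Option.mem_def, Option.some.injEq] at hx
            subst hx
            have hh : (f ++ [y]).head? = some (π d) := by
              rw [h1] at hz
              rw [← hz]
              cases f <;> simp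
            rw [hh] at hw
            exact (Option.some.inj hw)
        · have : (c ++ f ++ [y]).countP (fun x => decide (Z x)) ≤ 2 * M := by
            simp only [List.countP_append, List.countP_cons, List.countP_nil]
            split_ifs <;> omega
          exact this
    · have hle : ((bs ++ [(c ++ f, y)]).map (closeCost π ℓ)).sum ≤
          cutSum Z ℓ M k (l ++ [z]) := by
        rw [h6, List.map_append, List.sum_append]
        have a1 : (bs.map (closeCost π ℓ)).sum ≤ (bs.map (fun p => ℓ p.2)).sum := by
          refine List.sum_le_sum fun p _ => ?_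
          unfold closeCost
          split_ifs
          · exact hℓ _
          · exact le_refl _
        have a2 : (([(c ++ f, y)] : List (List α × α)).map (closeCost π ℓ)).sum ≤ ℓ y := by
          simp only [List.map_cons, List.map_nil, List.sum_cons, List.sum_nil, add_zero]
          unfold closeCost
          split_ifs
          · exact hℓ _
          · exact le_refl _
        linarith
      calc (M : ℤ) * ((bs ++ [(c ++ f, y)]).map (closeCost π ℓ)).sum
          ≤ (M : ℤ) * cutSum Z ℓ M k (l ++ [z]) :=
            mul_le_mul_of_nonneg_left hle (by positivity)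
        _ ≤ _ := hkM


/-- Every permutation of a finite type has a list of cycles on each invariant finite set. -/
theorem cut_perm [DecidableEq α] (π : Equiv.Perm α) (Z : α → Prop) [DecidablePred Z]
    (ℓ : α → ℤ) (hℓ : ∀ x, 0 ≤ ℓ x) (M : ℕ) (hM : 1 ≤ M) :
    ∀ (n : ℕ) (A : Finset α), A.card = n → (∀ x, x ∈ A ↔ π x ∈ A) →
    ∃ segs : List (List α × α),
      (segs.map (fun p => p.1 ++ [p.2])).flatten.Nodup ∧
      (∀ x, x ∈ (segs.map (fun p => p.1 ++ [p.2])).flatten ↔ x ∈ A) ∧
      (∀ p ∈ segs, PChain π (p.1 ++ [p.2]) ∧
        (p.1 ++ [p.2]).countP (fun x => decide (Z x)) ≤ 2 * M) ∧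
      (M : ℤ) * (segs.map (closeCost π ℓ)).sum ≤ ∑ x ∈ A.filter Z, ℓ x := by
  intro n
  induction n using Nat.strong_induction_on with
  | _ n ih =>
    intro A hA hinv
    rcases A.eq_empty_or_nonempty with rfl | ⟨x, hx⟩
    · exact ⟨[], by simp, by simp, by simp, by simp⟩
    -- the cycle of `x`
    have hper : ∃ m, 0 < m ∧ (π ^ m) x = x := by
      obtain ⟨i, j, hij, he⟩ : ∃ i j : ℕ, i < j ∧ (π ^ i) x = (π ^ j) x := by
        have hmem : ∀ i : ℕ, (π ^ i) x ∈ A := by
          intro i
          induction i with
          | zero => simpa using hx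
          | succ i ih' =>
            rw [pow_succ', Equiv.Perm.mul_apply]
            exact (hinv _).1 ih'
        by_contra hcon
        push Not at hcon
        have hinj : Function.Injective (fun i : ℕ => (⟨(π ^ i) x, hmem i⟩ : A)) := by
          intro i j hij
          by_contra hne
          have hij' : (π ^ i) x = (π ^ j) x := congrArg Subtype.val hij
          rcases lt_or_gt_of_ne hne with h | h
          · exact hcon i j h hij'
          · exact hcon j i h hij'.symm
        exact not_injective_infinite_finite _ hinj
      refine ⟨j - i, by omega, ?_⟩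
      have : (π ^ i) ((π ^ (j - i)) x) = (π ^ i) x := by
        rw [← Equiv.Perm.mul_apply, ← pow_add, show i + (j - i) = j by omega, he]
      exact (π ^ i).injective this
    classical
    have hm := Nat.find_spec hper
    have hmin : ∀ m, m < Nat.find hper → ¬ (0 < m ∧ (π ^ m) x = x) := fun m h => Nat.find_min hper h
    set m := Nat.find hper with hmdef
    obtain ⟨r, hr⟩ : ∃ r, m = r + 1 := ⟨m - 1, by omega⟩
    -- the list of the cycle
    set cyc : List α := (List.range m).map (fun i => (π ^ i) x) with hcyc
    have hcyc' : cyc = (List.range r).map (fun i => (π ^ i) x) ++ [(π ^ r) x] := by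
      rw [hcyc, hr, List.range_succ, List.map_append]
      rfl
    have hnd : cyc.Nodup := by
      refine List.Nodup.map_on ?_ List.nodup_range
      intro i hi j hj hij
      rw [List.mem_range] at hi hj
      by_contra hne
      rcases lt_or_gt_of_ne hne with h | h
      · refine hmin (j - i) (by omega) ⟨by omega, ?_⟩
        have : (π ^ i) ((π ^ (j - i)) x) = (π ^ i) x := by
          rw [← Equiv.Perm.mul_apply, ← pow_add, show i + (j - i) = j by omega, hij]
        exact (π ^ i).injective this
      · refine hmin (i - j) (by omega) ⟨by omega, ?_⟩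
        have : (π ^ j) ((π ^ (i - j)) x) = (π ^ j) x := by
          rw [← Equiv.Perm.mul_apply, ← pow_add, show j + (i - j) = i by omega, hij]
        exact (π ^ j).injective this
    have hmemA : ∀ i : ℕ, (π ^ i) x ∈ A := by
      intro i
      induction i with
      | zero => simpa using hx
      | succ i ih' =>
        rw [pow_succ', Equiv.Perm.mul_apply]
        exact (hinv _).1 ih'
    have hcycA : ∀ y ∈ cyc, y ∈ A := by
      intro y hy
      obtain ⟨i, _, rfl⟩ := List.mem_map.1 hy
      exact hmemA i
    have hcycinv : ∀ y, y ∈ cyc ↔ π y ∈ cyc := by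
      intro y
      constructor
      · intro hy
        obtain ⟨i, hi, rfl⟩ := List.mem_map.1 hy
        rw [List.mem_range] at hi
        rw [← Equiv.Perm.mul_apply, ← pow_succ']
        by_cases hi' : i + 1 < m
        · exact List.mem_map.2 ⟨i + 1, List.mem_range.2 hi', rfl⟩
        · rw [show i + 1 = m by omega, hm.2]
          exact List.mem_map.2 ⟨0, List.mem_range.2 hm.1, by simp⟩
      · intro hy
        obtain ⟨i, hi, hi2⟩ := List.mem_map.1 hy
        rw [List.mem_range] at hi
        by_cases hi0 : i = 0
        · subst hi0
          have : π y = π ((π ^ r) x) := by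
            rw [← hi2, ← Equiv.Perm.mul_apply, ← pow_succ', ← hr, hm.2]
            simp
          rw [π.injective this]
          exact List.mem_map.2 ⟨r, List.mem_range.2 (by omega), rfl⟩
        · have : π y = π ((π ^ (i - 1)) x) := by
            rw [← hi2, ← Equiv.Perm.mul_apply, ← pow_succ', show i - 1 + 1 = i by omega]
          rw [π.injective this]
          exact List.mem_map.2 ⟨i - 1, List.mem_range.2 (by omega), rfl⟩
    have hchain : PChain π cyc := by
      unfold PChain
      rw [hcyc, List.isChain_iff_getElem]
      intro i hi
      simp only [List.length_map, List.length_range] at hi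
      simp only [List.getElem_map, List.getElem_range]
      rw [← Equiv.Perm.mul_apply, ← pow_succ']
    have hhead : cyc.head? = some (π ((π ^ r) x)) := by
      rw [← Equiv.Perm.mul_apply, ← pow_succ', ← hr, hm.2, hcyc, hr, List.range_succ_eq_map]
      simp
    rw [hcyc'] at hchain hhead
    obtain ⟨s1, h1, h2, h3⟩ := cut_cycle π Z ℓ hℓ M hM _ _ hchain hhead
    rw [← hcyc'] at h1 h3
    -- the rest
    have hBcard : (A \ cyc.toFinset).card < n := by
      rw [← hA]
      refine Finset.card_lt_card ?_
      refine Finset.ssubset_iff_subset_ne.2 ⟨Finset.sdiff_subset, ?_⟩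
      intro he
      have hx' : x ∈ A \ cyc.toFinset := by rw [he]; exact hx
      refine (Finset.mem_sdiff.1 hx').2 (List.mem_toFinset.2 ?_)
      exact List.mem_map.2 ⟨0, List.mem_range.2 hm.1, by simp⟩
    obtain ⟨s2, g1, g2, g3, g4⟩ := ih _ hBcard (A \ cyc.toFinset) rfl (by
      intro y
      simp only [Finset.mem_sdiff, List.mem_toFinset]
      rw [hinv y, hcycinv y])
    refine ⟨s1 ++ s2, ?_, ?_, ?_, ?_⟩
    · rw [List.map_append, List.flatten_append, List.nodup_append]
      refine ⟨h1.nodup_iff.2 hnd, g1, ?_⟩
      intro y hy z hz hyz
      subst hyz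
      have a := (g2 y).1 hz
      have b := h1.mem_iff.1 hy
      exact (Finset.mem_sdiff.1 a).2 (List.mem_toFinset.2 b)
    · intro y
      rw [List.map_append, List.flatten_append, List.mem_append, g2 y, h1.mem_iff,
        Finset.mem_sdiff, List.mem_toFinset]
      constructor
      · rintro (h | h)
        · exact hcycA y h
        · exact h.1
      · intro h
        by_cases hy : y ∈ cyc
        · exact Or.inl hy
        · exact Or.inr ⟨h, hy⟩
    · intro p hp
      rcases List.mem_append.1 hp with hp | hp
      · exact h2 p hp
      · exact g3 p hp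
    · rw [List.map_append, List.sum_append, mul_add]
      have e : ∑ y ∈ A.filter Z, ℓ y = ((cyc.filter (fun x => decide (Z x))).map ℓ).sum +
          ∑ y ∈ (A \ cyc.toFinset).filter Z, ℓ y := by
        have e1 : A.filter Z = (cyc.toFinset.filter Z) ∪ ((A \ cyc.toFinset).filter Z) := by
          ext y
          simp only [Finset.mem_filter, Finset.mem_union, List.mem_toFinset, Finset.mem_sdiff]
          constructor
          · rintro ⟨a, b⟩
            by_cases hy : y ∈ cyc
            · exact Or.inl ⟨hy, b⟩
            · exact Or.inr ⟨⟨a, hy⟩, b⟩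
          · rintro (⟨a, b⟩ | ⟨a, b⟩)
            · exact ⟨hcycA y a, b⟩
            · exact ⟨a.1, b⟩
        rw [e1, Finset.sum_union]
        · congr 1
          have e2 : cyc.toFinset.filter Z = (cyc.filter (fun x => decide (Z x))).toFinset := by
            ext y
            simp
          rw [e2, List.sum_toFinset _ (hnd.filter _)]
        · rw [Finset.disjoint_left]
          intro y hy hy2
          simp only [Finset.mem_filter, List.mem_toFinset, Finset.mem_sdiff] at hy hy2
          exact hy2.1.2 hy.1
      rw [e]
      exact add_le_add h3 g4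

end Vale.Agent.P333.G155
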