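import Vale.Agent.P333.G.SegDefs
import Vale.Agent.P333.G155.Cut

namespace Vale.Agent.P333.G155

open Vale.Agent.P333.G

theorem closeCost_eq {V : Type} [DecidableEq V] (π : Equiv.Perm V) (len : V → ℕ)
    (p : List V × V) : closeCost π (fun x => (len x : ℤ)) p = (clo π len (p.1 ++ [p.2]) : ℤ) := by
  have h1 : (p.1 ++ [p.2]).getLast? = some p.2 := by simp
  unfold closeCost clo
  by_cases h : (p.1 ++ [p.2]).head? = some (π p.2)
  · rw [if_pos h, if_pos (by rw [h1, h]; rfl)]; rfl
  · rw [if_neg h, if_neg (by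
      rw [h1]
      intro h'
      exact h (Eq.symm h')), h1]
    rfl

theorem segLemma : SegLemma := by
  intro V _ _ π Z len M hM
  obtain ⟨segs, h1, h2, h3, h4⟩ := cut_perm π (fun x => x ∈ Z) (fun x => (len x : ℤ))
    (fun x => Int.natCast_nonneg _) M hM _ Finset.univ rfl (by simp)
  refine ⟨segs.map (fun p => p.1 ++ [p.2]), h1, fun v => (h2 v).2 (Finset.mem_univ _), ?_, ?_⟩
  · intro l hl
    obtain ⟨p, hp, rfl⟩ := List.mem_map.1 hl
    refine ⟨by simp, ?_, ?_⟩
    · refine (h3 p hp).1.imp ?_
      intro a b h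
      exact Eq.symm h
    · rw [← List.countP_eq_length_filter]
      exact (h3 p hp).2
  · have e : ((Finset.univ.filter (fun x => x ∈ Z)) : Finset V) = Z := by ext; simp
    rw [e] at h4
    have h5 : (segs.map (closeCost π (fun x => (len x : ℤ)))).sum =
        (((segs.map (fun p => p.1 ++ [p.2])).map (clo π len)).sum : ℕ) := by
      rw [List.map_map, Nat.cast_list_sum, List.map_map]
      congr 1
      refine List.map_congr_left fun p _ => ?_
      exact closeCost_eq π len p
    rw [h5] at h4
    exact_mod_cast h4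

end Vale.Agent.P333.G155
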